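import Vale.Agent.P062.C10
import Vale.Agent.P062.C11
import Vale.Agent.P062.C20
import Vale.Agent.P062.C21
import Vale.Agent.P062.C22
import Vale.Agent.P062.C30
import Vale.Agent.P062.C31
import Vale.Agent.P062.C32
import Vale.Agent.P062.C33
import Vale.Agent.P062.C41
import Vale.Agent.P062.C51
import Vale.Agent.P062.Sym

/-! Maker wins from the empty board. -/

namespace Vale.Agent.P062

/-- a card whose core is one cell -/
def top10 : Top := ⟨387, 69335190735744412522000323495342362070504349666576435785304466386658827108501136417581971873265105932975031562616816429221560801036148968818981985350141948848735229424631560209161555130001697157647083557354365489622976299023⟩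

lemma ok10 : top10.Ok :=
  ⟨valid_10.mono (by norm_num), noWrap_of _ 744 _ (by decide +kernel) (by decide +kernel)⟩

/-- a card whose core is one cell -/
def top11 : Top := ⟨324, 2473304016516214337710488390567700652991805261997300950513771540001012853080134778206872846891207484451278786928373321815241873911994598406847535708612785663992204174393606399⟩

lemma ok11 : top11.Ok :=
  ⟨valid_11.mono (by norm_num), noWrap_of _ 580 _ (by decide +kernel) (by decide +kernel)⟩

/-- a card whose core is one cell -/
def top20 : Top := ⟨290, 16759759924134803484488470800103400645792756911727890185573674715233523722400392845913415510407644187628071069496929282381374168975534894798483752858157073⟩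

lemma ok20 : top20.Ok :=
  ⟨valid_20.mono (by norm_num), noWrap_of _ 513 _ (by decide +kernel) (by decide +kernel)⟩

/-- a card whose core is one cell -/
def top21 : Top := ⟨226, 94852453598338034956324392603410141607286884021819701824615773350524668353076323416585742586682813505785619157732008670249450787053764653⟩

lemma ok21 : top21.Ok :=
  ⟨valid_21.mono (by norm_num), noWrap_of _ 456 _ (by decide +kernel) (by decide +kernel)⟩

/-- a card whose core is one cell -/
def top22 : Top := ⟨288, 30167567904415595934785313623522181559851600374342767156050259663510229489192512714307750694988608993035705312031515735693026673848057304883404869772247041⟩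

lemma ok22 : top22.Ok :=
  ⟨valid_22.mono (by norm_num), noWrap_of _ 514 _ (by decide +kernel) (by decide +kernel)⟩

/-- a card whose core is one cell -/
def top30 : Top := ⟨221, 454274203002061171689603750815807783247663938898774558474484376260277825833542037082722452852606764888982871702702243229852937048031233⟩

lemma ok30 : top30.Ok :=
  ⟨valid_30.mono (by norm_num), noWrap_of _ 448 _ (by decide +kernel) (by decide +kernel)⟩

/-- a card whose core is one cell -/
def top31 : Top := ⟨286, 123665200783340970546712740619207597517415593700023532761309195669334878541898525652036179874842128981208541155104958152680309126406730254122169078576229427886190807413161985⟩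

lemma ok31 : top31.Ok :=
  ⟨valid_31.mono (by norm_num), noWrap_of _ 576 _ (by decide +kernel) (by decide +kernel)⟩

/-- a card whose core is one cell -/
def top32 : Top := ⟨257, 1271967768828847101166676736895600920184141249897092915885963290832478189170889875996613067782450154337673505458286110765718448256319489⟩

lemma ok32 : top32.Ok :=
  ⟨valid_32.mono (by norm_num), noWrap_of _ 449 _ (by decide +kernel) (by decide +kernel)⟩

/-- a card whose core is one cell -/
def top33 : Top := ⟨196, 1654884260826529778281386879626652946398387649898296841368981588688551964048491869309310262252762380755903860799701487⟩

lemma ok33 : top33.Ok :=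
  ⟨valid_33.mono (by norm_num), noWrap_of _ 390 _ (by decide +kernel) (by decide +kernel)⟩

/-- a card whose core is one cell -/
def top41 : Top := ⟨260, 3121748601921541699650342867584439110527286914400056045578001881016899587071315838554970496141200455711205566740551198319871650440097914609991681⟩

lemma ok41 : top41.Ok :=
  ⟨valid_41.mono (by norm_num), noWrap_of _ 481 _ (by decide +kernel) (by decide +kernel)⟩

/-- a card whose core is one cell -/
def top51 : Top := ⟨193, 53897217612202852505928714118165208331177799403958839825560110614518001749919263381226323112493699372679229⟩

lemma ok51 : top51.Ok :=
  ⟨valid_51.mono (by norm_num), noWrap_of _ 355 _ (by decide +kernel) (by decide +kernel)⟩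

theorem wn35 : Wn 35 ∅ ∅ := by
  refine win_of_cover [top51, top30, top33, top41, top32, top20, top31, top22, top21, top11, top10] ?_ top51 ok51 355 (by decide +kernel) (by decide +kernel)
  simp only [List.forall_mem_cons, List.not_mem_nil, false_imp_iff, implies_true, and_true]
  exact ⟨ok51, ok30, ok33, ok41, ok32, ok20, ok31, ok22, ok21, ok11, ok10⟩

end Vale.Agent.P062
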